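import Vale.Agent.P347.Product

/-!
# P347: block separable targets need a squared logarithm of queries

Every block runs its own rejection sampler, all of them on shared query points: the gradient of the
potential at a glued point gives every block gradient at once.
-/

namespace P347

open MeasureTheory Finset
open scoped BigOperators RealInnerProductSpace Gradient

noncomputable section

variable {d : ℕ} {blk : Fin d → Fin d}

/-- The random numbers of the algorithm. -/
abbrev Omega (blk : Fin d → Fin d) (J K : ℕ) : Type :=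
  (i : Fin d) → Fin J → Seed (Part blk i) K

theorem standardBorel_omega (blk : Fin d → Fin d) (J K : ℕ) :
    StandardBorelSpace (Omega blk J K) := by
  have : ∀ i : Fin d, StandardBorelSpace (Seed (Part blk i) K) := fun i => inferInstance
  have : ∀ i : Fin d, StandardBorelSpace (Fin J → Seed (Part blk i) K) := fun i =>
    StandardBorelSpace.pi_countable
  exact StandardBorelSpace.pi_countable

/-- The points to be queried. -/
def query (blk : Fin d → Fin d) {J K : ℕ} (ω : Omega blk J K) (n : Fin (J * K)) :
    EuclideanSpace ℝ (Fin d) :=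
  glue blk fun i => (ω i (finProdFinEquiv.symm n).1).2.1 (finProdFinEquiv.symm n).2 •
    (ω i (finProdFinEquiv.symm n).1).1

/-- The output as a function of the answers. -/
def output (blk : Fin d → Fin d) {J K : ℕ} (ω : Omega blk J K)
    (r : Fin (J * K) → ℝ × EuclideanSpace ℝ (Fin d)) : EuclideanSpace ℝ (Fin d) :=
  glue blk fun i => pick (ω i) fun j k => res blk i (r (finProdFinEquiv (j, k))).2

theorem measurable_query (blk : Fin d → Fin d) {J K : ℕ} :
    Measurable (query blk (J := J) (K := K)) :=
  measurable_pi_lambda _ fun n => (continuous_glue blk).measurable.comp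
    (measurable_pi_lambda _ fun i => by fun_prop)

theorem measurable_output (blk : Fin d → Fin d) {J K : ℕ} :
    Measurable (Function.uncurry (output blk (J := J) (K := K))) := by
  refine (continuous_glue blk).measurable.comp (measurable_pi_lambda _ fun i => ?_)
  have hres := (continuous_res blk i).measurable
  exact measurable_pick.comp
    (f := fun z : Omega blk J K × (Fin (J * K) → ℝ × EuclideanSpace ℝ (Fin d)) =>
      (z.1 i, fun j k => res blk i (z.2 (finProdFinEquiv (j, k))).2))
    (((measurable_pi_apply i).comp measurable_fst).prodMk (measurable_pi_lambda _ fun j =>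
      measurable_pi_lambda _ fun k => hres.comp (measurable_snd.comp
        ((measurable_pi_apply _).comp measurable_snd))))

/-- The algorithm with given numbers of draws and coin flips. -/
theorem algorithm {V : EuclideanSpace ℝ (Fin d) → ℝ} (hV : Differentiable ℝ V)
    (h : Block V (gradient V)) (hsep : ∀ x, V x = ∑ i, V (emb blk i (res blk i x)))
    {b J K : ℕ} {L δ : ℝ} (hb : ∀ i, (univ.filter fun k => blk k = i).card ≤ b)
    (hδ0 : 0 ≤ δ) (hδ : δ ≤ 1 / 4) (hK : Real.exp (3 * L) ≤ δ * 2 ^ K)
    (hL : 2 ^ b * Real.exp (-L / 4) ≤ δ) (hJ : Real.exp (-((J : ℝ) / 2 ^ (b + 1))) ≤ δ)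
    {S : Set (EuclideanSpace ℝ (Fin d))} (hS : MeasurableSet S) :
    |((Measure.pi fun i => Measure.pi fun _ : Fin J => seedLaw (Part blk i) K).map fun ω =>
        output blk ω fun n => (V (query blk ω n), gradient V (query blk ω n))).real S
      - (gibbs V).real S| ≤ 3 * d * δ := by
  set D := fun i => fun y : Part blk i => res blk i (gradient V (emb blk i y))
  have hB : ∀ i, Block (fun y : Part blk i => V (emb blk i y)) (D i) := h.part
  have hrank : ∀ i, Module.finrank ℝ (Part blk i) ≤ b := fun i => by
    rw [finrank_euclideanSpace, Fintype.card_subtype]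
    exact hb i
  have hsame : (fun ω : Omega blk J K =>
      output blk ω fun n => (V (query blk ω n), gradient V (query blk ω n)))
      = glue blk ∘ fun ω i => blockOut (D i) (ω i) := by
    funext ω
    simp only [output, Function.comp_apply, blockOut]
    refine congrArg (glue blk) (funext fun i => congrArg (pick (ω i)) (funext fun j =>
      funext fun k => ?_))
    rw [gradient_part hV hsep, query, res_glue, Equiv.symm_apply_apply]
  set seed := fun i => Measure.pi fun _ : Fin J => seedLaw (Part blk i) K
  set law := fun i => (seed i).map (blockOut (D i)) with hlawdef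
  have hmeas : ∀ i, Measurable (blockOut (D i) : (Fin J → Seed (Part blk i) K) → Part blk i) :=
    fun i => measurable_blockOut (hB i)
  haveI : ∀ i, IsProbabilityMeasure (law i) := fun i =>
    Measure.isProbabilityMeasure_map (hmeas i).aemeasurable
  have hprod : Measurable fun (ω : Omega blk J K) i => blockOut (D i) (ω i) :=
    measurable_pi_lambda _ fun i => (hmeas i).comp (measurable_pi_apply i)
  rw [hsame, ← Measure.map_map (continuous_glue blk).measurable hprod,
    Measure.pi_map_pi fun i => (hmeas i).aemeasurable]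
  have hclose := glue_close h hsep law (δ := δ) (L := L) hδ0 hδ
    (fun i => le_trans (by linarith) (gibbs_ball (hB i) (hrank i) L))
    (fun i B hBm => by
      rw [measureReal_def (μ := law i), hlawdef, Measure.map_apply (hmeas i) hBm]
      exact block_law (hB i) (hrank i) hδ hK hL hJ hBm) hS
  rwa [Fintype.card_fin] at hclose

/-- **Squared logarithm for block separable targets.** -/
theorem separable_targets :
    ∃ C : ℝ, ∀ b d : ℕ, 2 ≤ d → ∀ blk : Fin d → Fin d,
      (∀ i, (Finset.univ.filter fun k => blk k = i).card ≤ b) →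
      ∃ q : ℕ, (q : ℝ) ≤ C * (b + 1) * 2 ^ b * Real.log d ^ 2 ∧
        ∃ (Ω : Type) (_ : MeasurableSpace Ω) (P : Measure Ω)
          (query : Ω → Fin q → EuclideanSpace ℝ (Fin d))
          (out : Ω → (Fin q → ℝ × EuclideanSpace ℝ (Fin d)) → EuclideanSpace ℝ (Fin d)),
          StandardBorelSpace Ω ∧ IsProbabilityMeasure P ∧ Measurable query ∧
          Measurable (Function.uncurry out) ∧
          ∀ V : EuclideanSpace ℝ (Fin d) → ℝ, ContDiff ℝ 2 V → V 0 = 0 → gradient V 0 = 0 →
            (∀ x h, ‖h‖ ^ 2 ≤ iteratedFDeriv ℝ 2 V x ![h, h] ∧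
              iteratedFDeriv ℝ 2 V x ![h, h] ≤ 2 * ‖h‖ ^ 2) →
            (∀ x, V x = ∑ i, V (WithLp.toLp 2 fun k => if blk k = i then x k else 0)) →
            ∀ S : Set (EuclideanSpace ℝ (Fin d)), MeasurableSet S →
              |(P.map fun ω => out ω fun j => (V (query ω j), gradient V (query ω j))).real S
                - (∫ x in S, Real.exp (-V x)) / ∫ x, Real.exp (-V x)| ≤ 1 / 10 := by
  have hlog2 : 0 < Real.log 2 := Real.log_pos one_lt_two
  refine ⟨96 * (Real.log 30 / Real.log 2 + 1) ^ 2, fun b d hd blk hb => ?_⟩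
  have hd0 : (2 : ℝ) ≤ d := by exact_mod_cast hd
  set ℓ := Real.log (30 * d) with hℓ
  have hℓ1 : 1 ≤ ℓ := by
    rw [hℓ, Real.le_log_iff_exp_le (by positivity)]
    linarith [Real.exp_one_lt_three]
  have hℓd : ℓ ≤ (Real.log 30 / Real.log 2 + 1) * Real.log d := by
    rw [hℓ, Real.log_mul (by norm_num) (by positivity), add_mul, one_mul, div_mul_eq_mul_div]
    refine add_le_add ((le_div_iff₀ hlog2).2 ?_) le_rfl
    exact mul_le_mul_of_nonneg_left (Real.log_le_log two_pos hd0) (Real.log_nonneg (by norm_num))
  set δ : ℝ := 1 / (30 * d) with hδdef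
  have hδexp : Real.exp (-ℓ) = δ := by
    rw [Real.exp_neg, Real.exp_log (by positivity), hδdef, one_div]
  have hδ : δ ≤ 1 / 4 := by
    rw [hδdef]
    gcongr
    linarith
  set L := 4 * (b * Real.log 2 + ℓ) with hLdef
  have hL : 2 ^ b * Real.exp (-L / 4) ≤ δ := by
    refine le_of_eq ?_
    rw [← hδexp, ← Real.exp_log (two_pos : (0 : ℝ) < 2), ← Real.exp_nat_mul, ← Real.exp_add]
    congr 1
    rw [hLdef]
    ring
  set K := ⌈(3 * L + ℓ) / Real.log 2⌉₊ with hKdef
  have hK : Real.exp (3 * L) ≤ δ * 2 ^ K := by
    rw [← hδexp, ← Real.exp_log (two_pos : (0 : ℝ) < 2), ← Real.exp_nat_mul, ← Real.exp_add,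
      Real.exp_le_exp]
    have := (div_le_iff₀ hlog2).1 (Nat.le_ceil ((3 * L + ℓ) / Real.log 2))
    rw [← hKdef] at this
    linarith
  set J := ⌈(2 : ℝ) ^ (b + 1) * ℓ⌉₊ with hJdef
  have hJ : Real.exp (-((J : ℝ) / 2 ^ (b + 1))) ≤ δ := by
    rw [← hδexp, Real.exp_le_exp, neg_le_neg_iff, le_div_iff₀ (by positivity)]
    calc ℓ * 2 ^ (b + 1) = (2 : ℝ) ^ (b + 1) * ℓ := mul_comm _ _
      _ ≤ _ := Nat.le_ceil _
  have hKle : (K : ℝ) ≤ ((12 * (b * Real.log 2) + 13) / Real.log 2 + 1) * ℓ := by
    have h1 : (K : ℝ) < (3 * L + ℓ) / Real.log 2 + 1 := Nat.ceil_lt_add_one (by positivity)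
    have h2 : (3 * L + ℓ) / Real.log 2 ≤ (12 * (b * Real.log 2) + 13) / Real.log 2 * ℓ := by
      rw [div_mul_eq_mul_div]
      gcongr
      have : (b : ℝ) * Real.log 2 ≤ b * Real.log 2 * ℓ :=
        le_mul_of_one_le_right (by positivity) hℓ1
      rw [hLdef]
      nlinarith
    rw [add_mul, one_mul]
    linarith
  have hJle : (J : ℝ) ≤ ((2 : ℝ) ^ (b + 1) + 1) * ℓ := by
    have h1 : (J : ℝ) < (2 : ℝ) ^ (b + 1) * ℓ + 1 := Nat.ceil_lt_add_one (by positivity)
    rw [add_mul, one_mul]
    linarith
  refine ⟨J * K, ?_, Omega blk J K, inferInstance,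
    Measure.pi fun i => Measure.pi fun _ : Fin J => seedLaw (Part blk i) K,
    query blk, output blk, standardBorel_omega blk J K, inferInstance, measurable_query blk,
    measurable_output blk, fun V hV h0 hg hH hsum S hS => ?_⟩
  · rw [Nat.cast_mul]
    calc (J : ℝ) * K
        ≤ ((2 : ℝ) ^ (b + 1) + 1) * ℓ *
            (((12 * (b * Real.log 2) + 13) / Real.log 2 + 1) * ℓ) :=
          mul_le_mul hJle hKle (Nat.cast_nonneg K) ((Nat.cast_nonneg J).trans hJle)
      _ = ((2 : ℝ) ^ (b + 1) + 1) * ((12 * (b * Real.log 2) + 13) / Real.log 2 + 1) * ℓ ^ 2 := by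
          ring
      _ ≤ 96 * ((b : ℝ) + 1) * 2 ^ b * ((Real.log 30 / Real.log 2 + 1) * Real.log d) ^ 2 := by
          refine mul_le_mul ?_ (pow_le_pow_left₀ (by linarith) hℓd 2) (by positivity) (by positivity)
          have h1 : (2 : ℝ) ^ (b + 1) + 1 ≤ 3 * 2 ^ b := by
            rw [pow_succ]
            linarith [one_le_pow₀ (M₀ := ℝ) one_le_two (n := b)]
          have h2 : (12 * (b * Real.log 2) + 13) / Real.log 2 + 1 ≤ 32 * ((b : ℝ) + 1) := by
            rw [add_div, ← mul_assoc, mul_div_assoc, div_self hlog2.ne', mul_one]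
            have : 13 / Real.log 2 ≤ 31 := by
              rw [div_le_iff₀ hlog2]
              linarith [Real.log_two_gt_d9]
            linarith [Nat.cast_nonneg (α := ℝ) b]
          calc _ ≤ 3 * (2 : ℝ) ^ b * (32 * ((b : ℝ) + 1)) :=
                mul_le_mul h1 h2 (by positivity) (by positivity)
            _ = _ := by ring
      _ = _ := by ring
  · have hblock := block_of_hessian hV h0 hg hH
    have hsep : ∀ x, V x = ∑ i, V (emb blk i (res blk i x)) := fun x => by
      simp only [emb_res]
      exact hsum x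
    rw [← real_gibbs hblock hS]
    refine (algorithm (hV.differentiable (by norm_num)) hblock hsep hb (δ := δ) (L := L)
      (by rw [hδdef]; positivity) hδ hK hL hJ hS).trans (le_of_eq ?_)
    rw [hδdef]
    field_simp
    norm_num

end

end P347
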