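import Vale.Agent.P347.Block

/-!
# P347: from a smooth potential to block potentials

Coordinates are grouped by a map `blk`. A potential that is the sum of its restrictions to the
groups gives one block potential for each group, and the gradient at a glued point is read
group by group.
-/

namespace P347

open MeasureTheory Finset
open scoped BigOperators RealInnerProductSpace

noncomputable section

section Hessian

variable {F : Type} [NormedAddCommGroup F] [InnerProductSpace ℝ F] [CompleteSpace F] {V : F → ℝ}

theorem inner_gradient (V : F → ℝ) (x v : F) : ⟪gradient V x, v⟫ = fderiv ℝ V x v := by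
  simp [gradient, InnerProductSpace.toDual_symm_apply]

omit [CompleteSpace F] in
/-- The derivative of the directional derivative along a segment. -/
theorem hasDerivAt_fderiv_line (hf : Differentiable ℝ (fderiv ℝ V)) (x : F) (t : ℝ) :
    HasDerivAt (fun s : ℝ => fderiv ℝ V (s • x) x) (iteratedFDeriv ℝ 2 V (t • x) ![x, x]) t := by
  have g0 : HasDerivAt (fun s : ℝ => s • x) x t := by
    simpa only [one_smul, id_eq] using (hasDerivAt_id t).smul_const x
  have g1 : HasDerivAt (fun s : ℝ => fderiv ℝ V (s • x)) (fderiv ℝ (fderiv ℝ V) (t • x) x) t :=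
    HasFDerivAt.comp_hasDerivAt (l := fderiv ℝ V) (l' := fderiv ℝ (fderiv ℝ V) (t • x))
      (f := fun s : ℝ => s • x) t (hf (t • x)).hasFDerivAt g0
  have g2 := g1.clm_apply (hasDerivAt_const t x)
  rw [iteratedFDeriv_two_apply]
  simpa only [Matrix.cons_val_zero, Matrix.cons_val_one, map_zero, zero_add, add_zero] using g2

/-- A potential with Hessian between one and two and a critical point at zero is a block
potential. -/
theorem block_of_hessian (hV : ContDiff ℝ 2 V) (h0 : V 0 = 0) (hg : gradient V 0 = 0)
    (hH : ∀ x h : F, ‖h‖ ^ 2 ≤ iteratedFDeriv ℝ 2 V x ![h, h] ∧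
      iteratedFDeriv ℝ 2 V x ![h, h] ≤ 2 * ‖h‖ ^ 2) :
    Block V (gradient V) := by
  have hd : Differentiable ℝ V := hV.differentiable (by norm_num)
  have hf : ContDiff ℝ 1 (fderiv ℝ V) := hV.fderiv_right (by norm_num)
  have hdd : Differentiable ℝ (fderiv ℝ V) := hf.differentiable (by norm_num)
  have key : ∀ x : F, ‖x‖ ^ 2 ≤ ⟪gradient V x, x⟫ ∧ ⟪gradient V x, x⟫ ≤ 2 * ‖x‖ ^ 2 := by
    intro x
    have hl : ∀ t : ℝ, HasDerivAt (fun t : ℝ => fderiv ℝ V (t • x) x)
        (iteratedFDeriv ℝ 2 V (t • x) ![x, x]) t := hasDerivAt_fderiv_line hdd x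
    obtain ⟨c, -, hc⟩ := exists_hasDerivAt_eq_slope (f := fun t : ℝ => fderiv ℝ V (t • x) x)
      (f' := fun t => iteratedFDeriv ℝ 2 V (t • x) ![x, x]) (a := 0) (b := 1) one_pos
      (fun t _ => (hl t).continuousAt.continuousWithinAt) fun t _ => hl t
    have e0 : fderiv ℝ V 0 x = 0 := by rw [← inner_gradient, hg, inner_zero_left]
    simp only [one_smul, zero_smul, e0, sub_zero, div_one] at hc
    rw [inner_gradient, ← hc]
    exact hH _ _
  exact
    { cont := (InnerProductSpace.toDual ℝ F).symm.continuous.comp
        (hV.continuous_fderiv (by norm_num))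
      zero := h0
      deriv := fun x t => by
        have g0 : HasDerivAt (fun s : ℝ => s • x) x t := by
          simpa only [one_smul, id_eq] using (hasDerivAt_id t).smul_const x
        rw [inner_gradient]
        exact HasFDerivAt.comp_hasDerivAt (l := V) (f := fun s : ℝ => s • x) t
          (hd (t • x)).hasFDerivAt g0
      lower := fun x => (key x).1
      upper := fun x => (key x).2 }

end Hessian

variable {ι κ : Type} [Fintype ι] [Fintype κ] [DecidableEq κ] (blk : ι → κ)

/-- The coordinates of one group. -/
abbrev Part (i : κ) : Type := EuclideanSpace ℝ {k : ι // blk k = i}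

/-- Restriction to one group. -/
def res (i : κ) (x : EuclideanSpace ℝ ι) : Part blk i := WithLp.toLp 2 fun k => x k.1

/-- Extension by zero from one group. -/
def emb (i : κ) (y : Part blk i) : EuclideanSpace ℝ ι :=
  WithLp.toLp 2 fun k => if h : blk k = i then y ⟨k, h⟩ else 0

/-- The point with given group coordinates. -/
def glue (y : (i : κ) → Part blk i) : EuclideanSpace ℝ ι :=
  WithLp.toLp 2 fun k => y (blk k) ⟨k, rfl⟩

theorem res_glue (y : (i : κ) → Part blk i) (i : κ) : res blk i (glue blk y) = y i := by
  ext k
  obtain ⟨k, rfl⟩ := k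
  simp [res, glue]

theorem glue_res (x : EuclideanSpace ℝ ι) : glue blk (fun i => res blk i x) = x := by
  ext k; simp [res, glue]

theorem res_emb (i : κ) (y : Part blk i) : res blk i (emb blk i y) = y := by
  ext k; simp [res, emb, k.2]

theorem emb_res (i : κ) (x : EuclideanSpace ℝ ι) :
    emb blk i (res blk i x) = WithLp.toLp 2 fun k => if blk k = i then x k else 0 := by
  ext k
  by_cases h : blk k = i <;> simp [res, emb, h]

theorem emb_smul (i : κ) (t : ℝ) (y : Part blk i) : emb blk i (t • y) = t • emb blk i y := by
  ext k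
  by_cases h : blk k = i <;> simp [emb, h]

theorem res_add_emb (i j : κ) (x : EuclideanSpace ℝ ι) (w : Part blk j) (hij : i ≠ j) :
    res blk i (x + emb blk j w) = res blk i x := by
  ext k; simp [res, emb, k.2, hij]

theorem emb_res_add (i : κ) (x : EuclideanSpace ℝ ι) (w : Part blk i) :
    emb blk i (res blk i (x + emb blk i w)) = emb blk i (res blk i x) + emb blk i w := by
  ext k
  by_cases h : blk k = i <;> simp [res, emb, h]

theorem continuous_res (i : κ) : Continuous (res blk i) := by unfold res; fun_prop

theorem continuous_emb (i : κ) : Continuous (emb blk i) := by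
  unfold emb
  refine (PiLp.continuous_toLp 2 _).comp (continuous_pi fun k => ?_)
  split_ifs <;> fun_prop

theorem continuous_glue : Continuous (glue blk) := by unfold glue; fun_prop

theorem inner_res (i : κ) (g : EuclideanSpace ℝ ι) (w : Part blk i) :
    ⟪res blk i g, w⟫ = ⟪g, emb blk i w⟫ := by
  simp only [PiLp.inner_apply, RCLike.inner_apply, conj_trivial, res, emb, dite_mul, zero_mul]
  rw [← Fintype.sum_subtype_add_sum_subtype (fun k => blk k = i) (fun x => dite _ _ _),
    Finset.sum_eq_zero (s := (univ : Finset {k // ¬blk k = i})) fun k _ => dif_neg k.2, add_zero]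
  exact sum_congr rfl fun k _ => by rw [dif_pos k.2]

theorem norm_emb (i : κ) (y : Part blk i) : ‖emb blk i y‖ = ‖y‖ := by
  rw [norm_eq_sqrt_real_inner, norm_eq_sqrt_real_inner, ← inner_res, res_emb]

theorem norm_sq_split (x : EuclideanSpace ℝ ι) : ‖x‖ ^ 2 = ∑ i, ‖res blk i x‖ ^ 2 := by
  simp only [EuclideanSpace.norm_sq_eq, res]
  exact (Fintype.sum_fiberwise blk _).symm

variable {blk} {V : EuclideanSpace ℝ ι → ℝ}

/-- One group of a block potential is a block potential. -/
theorem Block.part (h : Block V (gradient V)) (i : κ) :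
    Block (fun y => V (emb blk i y)) fun y => res blk i (gradient V (emb blk i y)) where
  cont := (continuous_res blk i).comp (h.cont.comp (continuous_emb blk i))
  zero := by
    have : emb blk i 0 = 0 := by simpa using emb_smul blk i 0 0
    rw [this, h.zero]
  deriv y t := by
    simp only [inner_res, emb_smul]
    exact h.deriv (emb blk i y) t
  lower y := by
    rw [inner_res, ← norm_emb blk i y]
    exact h.lower _
  upper y := by
    rw [inner_res, ← norm_emb blk i y]
    exact h.upper _

/-- The gradient of a sum over groups is read group by group. -/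
theorem gradient_part (hd : Differentiable ℝ V) (hsep : ∀ x, V x = ∑ i, V (emb blk i (res blk i x)))
    (x : EuclideanSpace ℝ ι) (i : κ) :
    res blk i (gradient V x) = res blk i (gradient V (emb blk i (res blk i x))) := by
  refine ext_inner_right ℝ fun w => ?_
  rw [inner_res, inner_res, inner_gradient, inner_gradient]
  set e := emb blk i w
  set z := emb blk i (res blk i x)
  have hB : HasDerivAt (fun t : ℝ => V (z + t • e) + (V x - V z)) (fderiv ℝ V z e) 0 :=
    ((hd z).hasFDerivAt.hasLineDerivAt e).add_const _
  have heq : (fun t : ℝ => V (x + t • e)) = fun t : ℝ => V (z + t • e) + (V x - V z) := by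
    funext t
    have h1 : ∀ j, j ≠ i → V (emb blk j (res blk j (x + t • e))) = V (emb blk j (res blk j x)) :=
      fun j hj => by rw [← emb_smul, res_add_emb blk j i x _ hj]
    rw [hsep (x + t • e), hsep x, ← Finset.add_sum_erase _ _ (mem_univ i),
      ← Finset.add_sum_erase _ (fun j => V (emb blk j (res blk j x))) (mem_univ i),
      sum_congr rfl fun j hj => h1 j (ne_of_mem_erase hj), ← emb_smul, emb_res_add, emb_smul]
    ring
  exact ((hd x).hasFDerivAt.hasLineDerivAt e).unique (show HasLineDerivAt ℝ V _ x e by
    unfold HasLineDerivAt; rw [heq]; exact hB)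

/-- The potential adds up over the groups. -/
theorem sum_part (hsep : ∀ x, V x = ∑ i, V (emb blk i (res blk i x))) (y : (i : κ) → Part blk i) :
    V (glue blk y) = ∑ i, V (emb blk i (y i)) := by
  rw [hsep]
  simp only [res_glue]

variable (blk) in
theorem glue_preserving :
    MeasurePreserving (glue blk) (Measure.pi fun i => (volume : Measure (Part blk i))) volume := by
  have hf : MeasurePreserving
      (fun (y : (i : κ) → {k // blk k = i} → ℝ) (k : ι) => y (blk k) ⟨k, rfl⟩)
      (Measure.pi fun i => (volume : Measure ({k // blk k = i} → ℝ))) volume := by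
    refine ⟨measurable_pi_lambda _ fun k =>
      (measurable_pi_apply _).comp (measurable_pi_apply _), ?_⟩
    refine (Measure.pi_eq fun s hs => ?_).symm
    rw [Measure.map_apply (by fun_prop) (MeasurableSet.univ_pi hs)]
    rw [show (fun (y : (i : κ) → {k // blk k = i} → ℝ) (k : ι) => y (blk k) ⟨k, rfl⟩) ⁻¹'
        Set.univ.pi s = Set.univ.pi fun i => Set.univ.pi fun k : {k // blk k = i} => s k.1 from
      Set.ext fun y => by
        simp only [Set.mem_preimage, Set.mem_univ_pi]
        exact ⟨fun h i k => by obtain ⟨k, rfl⟩ := k; exact h k, fun h k => h _ ⟨k, rfl⟩⟩,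
      Measure.pi_pi]
    simp only [volume_pi, Measure.pi_pi]
    exact Fintype.prod_fiberwise blk fun k => volume (s k)
  have h1 : MeasurePreserving (fun (y : (i : κ) → Part blk i) i => WithLp.ofLp (y i))
      (Measure.pi fun i => (volume : Measure (Part blk i)))
      (Measure.pi fun i => (volume : Measure ({k // blk k = i} → ℝ))) :=
    measurePreserving_pi _ _ fun i => PiLp.volume_preserving_ofLp _
  exact (PiLp.volume_preserving_toLp ι).comp (hf.comp h1)

end

end P347
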