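import Vale.Agent.P347.Coin

/-!
# P347: rejection sampling for one block

Draw `x` from the standard Gaussian law, accept it with the coin, and keep the first accepted of `J`
independent draws. The law of the result dominates a constant close to one times the block Gibbs law
on a large ball.
-/

namespace P347

open MeasureTheory Finset
open scoped BigOperators RealInnerProductSpace Real

noncomputable section

variable {E : Type} [NormedAddCommGroup E] [InnerProductSpace ℝ E] [FiniteDimensional ℝ E]
  [MeasurableSpace E] [BorelSpace E]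

/-- The Gaussian density. -/
def gaussDensity (x : E) : ℝ :=
  Real.exp (-(1 / 2) * ‖x‖ ^ 2) / (2 * π) ^ (Module.finrank ℝ E / 2 : ℝ)

theorem integrable_gauss {a : ℝ} (ha : 0 < a) :
    Integrable fun x : E => Real.exp (-a * ‖x‖ ^ 2) :=
  Integrable.of_integral_ne_zero (by
    rw [GaussianFourier.integral_rexp_neg_mul_sq_norm ha]
    positivity)

theorem gaussDensity_nonneg (x : E) : 0 ≤ gaussDensity x := by unfold gaussDensity; positivity

theorem continuous_gaussDensity : Continuous (gaussDensity (E := E)) := by
  unfold gaussDensity; fun_prop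

theorem integrable_gaussDensity : Integrable (gaussDensity (E := E)) :=
  (integrable_gauss (by norm_num)).div_const _

theorem integral_gaussDensity : ∫ x : E, gaussDensity x = 1 := by
  unfold gaussDensity
  rw [integral_div, GaussianFourier.integral_rexp_neg_mul_sq_norm (by norm_num),
    show π / (1 / 2) = 2 * π by ring, div_self (by positivity)]

variable (E) in
/-- The standard Gaussian law. -/
def gaussLaw : Measure E := volume.withDensity fun x => ENNReal.ofReal (gaussDensity x)

instance : IsProbabilityMeasure (gaussLaw E) := ⟨by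
  rw [gaussLaw, withDensity_apply _ MeasurableSet.univ, Measure.restrict_univ,
    ← ofReal_integral_eq_lintegral_ofReal integrable_gaussDensity
      (Filter.Eventually.of_forall gaussDensity_nonneg), integral_gaussDensity, ENNReal.ofReal_one]⟩

variable (E) in
/-- One draw: a point, `K` uniform numbers and the threshold of the coin. -/
abbrev Seed (K : ℕ) : Type := E × (Fin K → ℝ) × ℝ

variable (E) in
/-- The law of one draw. -/
def seedLaw (K : ℕ) : Measure (Seed E K) :=
  (gaussLaw E).prod ((Measure.pi fun _ : Fin K => unifLaw).prod unifLaw)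

instance (K : ℕ) : IsProbabilityMeasure (seedLaw E K) := by unfold seedLaw; infer_instance

/-- The coin shows acceptance. -/
def coinOk {K : ℕ} (s : Seed E K) (G : Fin K → E) : Prop := s.2.2 < coin s.1 s.2.1 G

open Classical in
/-- The first accepted draw. -/
def pick {J K : ℕ} (s : Fin J → Seed E K) (G : Fin J → Fin K → E) : E :=
  ∑ j, if coinOk (s j) (G j) ∧ ∀ l, l < j → ¬coinOk (s l) (G l) then (s j).1 else 0

theorem measurable_coin {K : ℕ} :
    Measurable fun z : E × (Fin K → ℝ) × (Fin K → E) => coin z.1 z.2.1 z.2.2 := by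
  apply Continuous.measurable
  unfold coin
  refine Continuous.mul (by fun_prop) (continuous_finsetSum _ fun k _ => Continuous.div_const
    (continuous_finsetProd _ fun l _ => ?_) _)
  by_cases h : l < k
  · simp only [if_pos h]; fun_prop
  · simp only [if_neg h]; fun_prop

theorem measurable_pick {J K : ℕ} :
    Measurable fun z : (Fin J → Seed E K) × (Fin J → Fin K → E) => pick z.1 z.2 := by
  have hok : ∀ j, MeasurableSet {z : (Fin J → Seed E K) × (Fin J → Fin K → E) |
      coinOk (z.1 j) (z.2 j)} := fun j =>
    measurableSet_lt (by fun_prop) (measurable_coin.comp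
      (f := fun z : (Fin J → Seed E K) × (Fin J → Fin K → E) => ((z.1 j).1, (z.1 j).2.1, z.2 j))
      (by fun_prop))
  unfold pick
  refine Finset.measurable_sum _ fun j _ => Measurable.ite ((hok j).inter ?_) (by fun_prop)
    measurable_const
  refine MeasurableSet.congr (MeasurableSet.iInter fun l => MeasurableSet.iInter
    fun _ : l < j => (hok l).compl) (Set.ext fun z => ?_)
  simp only [Set.mem_iInter, Set.mem_compl_iff]
  rfl

variable {W : E → ℝ} {D : E → E}

/-- The draws accepted with gradients of the block potential. -/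
def accepted (D : E → E) (K : ℕ) : Set (Seed E K) :=
  {s | coinOk s fun l => D (s.2.1 l • s.1)}

theorem measurableSet_accepted (h : Block W D) (K : ℕ) : MeasurableSet (accepted D K) := by
  have hc := h.cont
  refine measurableSet_lt (by fun_prop) (measurable_coin.comp
    (f := fun s : Seed E K => (s.1, s.2.1, fun l => D (s.2.1 l • s.1))) ?_)
  exact (by fun_prop : Continuous fun s : Seed E K =>
    (s.1, s.2.1, fun l => D (s.2.1 l • s.1))).measurable

theorem Block.continuous_potential (h : Block W D) : Continuous W := by
  have hf : Continuous fun x : E => ∫ t in (0 : ℝ)..1, ⟪D (t • x), x⟫ :=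
    intervalIntegral.continuous_parametric_intervalIntegral_of_continuous'
      ((h.cont.comp (continuous_snd.smul continuous_fst)).inner continuous_fst) 0 1
  exact (funext h.integral_eq : (fun x : E => ∫ t in (0 : ℝ)..1, ⟪D (t • x), x⟫) = W) ▸ hf

theorem continuous_coinMean (h : Block W D) (K : ℕ) : Continuous (coinMean W K) := by
  have := h.continuous_potential
  unfold coinMean; fun_prop

theorem integrable_weight (h : Block W D) : Integrable fun x => Real.exp (-W x) := by
  refine (integrable_gauss (E := E) (a := 1 / 2) (by norm_num)).mono'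
    ((Real.continuous_exp.comp h.continuous_potential.neg).aestronglyMeasurable)
    (Filter.Eventually.of_forall fun x => ?_)
  rw [Real.norm_eq_abs, abs_of_pos (Real.exp_pos _), Real.exp_le_exp]
  linarith [(h.bounds x).1]

theorem weight_pos (h : Block W D) : 0 < ∫ x, Real.exp (-W x) :=
  integral_exp_pos (integrable_weight h)

theorem gauss_mul_eq (x : E) :
    gaussDensity x * Real.exp (‖x‖ ^ 2 / 2 - W x)
      = Real.exp (-W x) / (2 * π) ^ (Module.finrank ℝ E / 2 : ℝ) := by
  rw [gaussDensity, div_mul_eq_mul_div, ← Real.exp_add]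
  ring_nf

theorem coinMean_nonneg (h : Block W D) (K : ℕ) (x : E) : 0 ≤ coinMean W K x := by
  have := (h.bounds x).2
  exact mul_nonneg (Real.exp_nonneg _) (sum_nonneg fun k _ => div_nonneg
    (pow_nonneg (by nlinarith [norm_nonneg x]) _) (by positivity))

theorem integrable_product (h : Block W D) (K : ℕ) :
    Integrable fun x => gaussDensity x * coinMean W K x := by
  refine ((integrable_weight h).div_const ((2 * π) ^ (Module.finrank ℝ E / 2 : ℝ))).mono'
    (continuous_gaussDensity.mul (continuous_coinMean h K)).aestronglyMeasurable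
    (Filter.Eventually.of_forall fun x => ?_)
  rw [Real.norm_eq_abs, abs_of_nonneg (mul_nonneg (gaussDensity_nonneg x) (coinMean_nonneg h K x)),
    ← gauss_mul_eq]
  exact mul_le_mul_of_nonneg_left (coinMean_le h K x) (gaussDensity_nonneg x)

/-- The mass of accepted draws in a set. -/
theorem real_accepted (h : Block W D) (K : ℕ) {B : Set E} (hB : MeasurableSet B) :
    (seedLaw E K).real ((Prod.fst ⁻¹' B) ∩ accepted D K)
      = ∫ x in B, gaussDensity x * coinMean W K x := by
  have hS : MeasurableSet ((Prod.fst ⁻¹' B) ∩ accepted D K) :=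
    (measurable_fst hB).inter (measurableSet_accepted h K)
  have hU : ∀ a ∈ Set.Icc (0 : ℝ) 1, unifLaw (Set.Iio a) = ENNReal.ofReal a := fun a ha => by
    rw [unifLaw, Measure.restrict_apply measurableSet_Iio,
      show Set.Iio a ∩ Set.Icc 0 1 = Set.Ico 0 a from Set.ext fun t =>
        ⟨fun ht => ⟨ht.2.1, ht.1⟩, fun ht => ⟨ht.2, ht.1, ht.2.le.trans ha.2⟩⟩,
      Real.volume_Ico, sub_zero]
  have hbox : ∀ᵐ u ∂(Measure.pi fun _ : Fin K => unifLaw), ∀ l, u l ∈ Set.Icc (0 : ℝ) 1 :=
    Filter.eventually_all.2 fun l => (Measure.quasiMeasurePreserving_eval _ l).ae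
      (ae_restrict_mem measurableSet_Icc)
  have hc := h.cont
  have hcc : ∀ x : E, Continuous fun u : Fin K → ℝ => coin x u fun l => D (u l • x) := fun x => by
    unfold coin
    refine continuous_const.mul (continuous_finsetSum _ fun k _ => Continuous.div_const
      (continuous_finsetProd _ fun l _ => ?_) _)
    by_cases hl : l < k
    · simp only [if_pos hl]; fun_prop
    · simp only [if_neg hl]; fun_prop
  have hslice : ∀ x, ((Measure.pi fun _ : Fin K => unifLaw).prod unifLaw)
      (Prod.mk x ⁻¹' ((Prod.fst ⁻¹' B) ∩ accepted D K))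
      = B.indicator (fun x => ENNReal.ofReal (coinMean W K x)) x := by
    intro x
    by_cases hx : x ∈ B
    · rw [Set.indicator_of_mem hx, Measure.prod_apply (measurable_prodMk_left hS)]
      rw [lintegral_congr_ae (g := fun u => ENNReal.ofReal (coin x u fun l => D (u l • x)))]
      · rw [← ofReal_integral_eq_lintegral_ofReal, coin_mean h x]
        · refine Integrable.mono' (integrable_const (1 : ℝ)) (hcc x).aestronglyMeasurable ?_
          filter_upwards [hbox] with u hu
          rw [Real.norm_eq_abs, abs_of_nonneg (coin_mem h x hu).1]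
          exact (coin_mem h x hu).2
        · filter_upwards [hbox] with u hu using (coin_mem h x hu).1
      · filter_upwards [hbox] with u hu
        rw [← hU _ (coin_mem h x hu)]
        exact congrArg _ (Set.ext fun w => ⟨fun hw => hw.2, fun hw => ⟨hx, hw⟩⟩)
    · rw [Set.indicator_of_notMem hx]
      rw [show Prod.mk x ⁻¹' ((Prod.fst ⁻¹' B) ∩ accepted D K) = ∅ from
        Set.eq_empty_of_forall_notMem fun z hz => hx hz.1, measure_empty]
  rw [measureReal_def, seedLaw, Measure.prod_apply hS, lintegral_congr hslice,
    lintegral_indicator hB, gaussLaw, setLIntegral_withDensity_eq_setLIntegral_mul _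
      continuous_gaussDensity.measurable.ennreal_ofReal
      (continuous_coinMean h K).measurable.ennreal_ofReal hB]
  simp only [Pi.mul_apply, ← ENNReal.ofReal_mul (gaussDensity_nonneg _)]
  rw [← ofReal_integral_eq_lintegral_ofReal (integrable_product h K).integrableOn
    (Filter.Eventually.of_forall fun x => mul_nonneg (gaussDensity_nonneg x) (coinMean_nonneg h K x)),
    ENNReal.toReal_ofReal (setIntegral_nonneg hB fun x _ =>
      mul_nonneg (gaussDensity_nonneg x) (coinMean_nonneg h K x))]

variable (W) in
/-- The Gibbs law. -/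
def gibbs : Measure E :=
  volume.withDensity fun x => ENNReal.ofReal (Real.exp (-W x) / ∫ y, Real.exp (-W y))

theorem real_gibbs (h : Block W D) {B : Set E} (hB : MeasurableSet B) :
    (gibbs W).real B = (∫ x in B, Real.exp (-W x)) / ∫ y, Real.exp (-W y) := by
  have hn : ∀ x, 0 ≤ Real.exp (-W x) / ∫ y, Real.exp (-W y) := fun x =>
    div_nonneg (Real.exp_nonneg _) (weight_pos h).le
  rw [measureReal_def, gibbs, withDensity_apply _ hB,
    ← ofReal_integral_eq_lintegral_ofReal ((integrable_weight h).div_const _).integrableOn
      (Filter.Eventually.of_forall hn), ENNReal.toReal_ofReal (setIntegral_nonneg hB fun x _ => hn x),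
    integral_div]

theorem gibbs_univ (h : Block W D) : gibbs W Set.univ = 1 := by
  rw [gibbs, withDensity_apply _ MeasurableSet.univ, Measure.restrict_univ,
    ← ofReal_integral_eq_lintegral_ofReal ((integrable_weight h).div_const _)
      (Filter.Eventually.of_forall fun x => div_nonneg (Real.exp_nonneg _) (weight_pos h).le),
    integral_div, div_self (weight_pos h).ne', ENNReal.ofReal_one]

/-- The ball kept for one block. -/
def ballSet (E : Type) [NormedAddCommGroup E] (L : ℝ) : Set E := {x | ‖x‖ ^ 2 ≤ L}

theorem measurableSet_ballSet (L : ℝ) : MeasurableSet (ballSet E L) :=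
  measurableSet_le (by fun_prop) measurable_const

theorem gibbs_ball (h : Block W D) {b : ℕ} (hb : Module.finrank ℝ E ≤ b) (L : ℝ) :
    1 - 2 ^ b * Real.exp (-L / 4) ≤ (gibbs W).real (ballSet E L) := by
  have hZ := weight_pos h
  have hi := integrable_weight h
  have hm := measurableSet_ballSet (E := E) L
  rw [real_gibbs h hm, le_div_iff₀ hZ, sub_mul, one_mul, sub_le_iff_le_add,
    ← integral_add_compl hm hi]
  gcongr
  rw [integral_add_compl hm hi]
  have e : (π / (1 / 4)) ^ (Module.finrank ℝ E / 2 : ℝ)
      = 2 ^ (Module.finrank ℝ E) * (π / 1) ^ (Module.finrank ℝ E / 2 : ℝ) := by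
    rw [show π / (1 / 4) = (2 : ℝ) ^ (2 : ℝ) * (π / 1) by norm_num; ring,
      Real.mul_rpow (by norm_num) (by positivity), ← Real.rpow_mul (by norm_num),
      show (2 : ℝ) * ((Module.finrank ℝ E : ℝ) / 2) = (Module.finrank ℝ E : ℕ) by ring,
      Real.rpow_natCast]
  calc ∫ x in (ballSet E L)ᶜ, Real.exp (-W x)
      ≤ ∫ x in (ballSet E L)ᶜ, Real.exp (-L / 4) * Real.exp (-(1 / 4) * ‖x‖ ^ 2) := by
        refine setIntegral_mono_on hi.integrableOn
          ((integrable_gauss (by norm_num)).const_mul _).integrableOn hm.compl fun x hx => ?_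
        rw [← Real.exp_add, Real.exp_le_exp]
        have : L < ‖x‖ ^ 2 := not_le.1 (show ¬ ‖x‖ ^ 2 ≤ L from hx)
        linarith [(h.bounds x).1]
    _ ≤ ∫ x, Real.exp (-L / 4) * Real.exp (-(1 / 4) * ‖x‖ ^ 2) :=
        setIntegral_le_integral ((integrable_gauss (by norm_num)).const_mul _)
          (Filter.Eventually.of_forall fun x => by positivity)
    _ ≤ 2 ^ b * Real.exp (-L / 4) * (π / 1) ^ (Module.finrank ℝ E / 2 : ℝ) := by
        rw [integral_const_mul, GaussianFourier.integral_rexp_neg_mul_sq_norm (by norm_num), e,
          mul_comm ((2 : ℝ) ^ b), mul_assoc]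
        gcongr
        norm_num
    _ ≤ 2 ^ b * Real.exp (-L / 4) * ∫ x, Real.exp (-W x) := by
        refine mul_le_mul_of_nonneg_left ?_ (by positivity)
        rw [← GaussianFourier.integral_rexp_neg_mul_sq_norm (V := E) one_pos]
        exact integral_mono (integrable_gauss one_pos) hi fun x =>
          Real.exp_le_exp.2 (by linarith [(h.bounds x).2])

/-- The output for one block. -/
def blockOut (D : E → E) {J K : ℕ} (s : Fin J → Seed E K) : E :=
  pick s fun j l => D ((s j).2.1 l • (s j).1)

theorem measurable_blockOut (h : Block W D) {J K : ℕ} :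
    Measurable (blockOut D : (Fin J → Seed E K) → E) := by
  have hc := h.cont
  exact measurable_pick.comp (f := fun s : Fin J → Seed E K =>
    (s, fun j l => D ((s j).2.1 l • (s j).1)))
    (by fun_prop : Continuous fun s : Fin J → Seed E K =>
      (s, fun j l => D ((s j).2.1 l • (s j).1))).measurable

/-- The law of the first accepted draw dominates a truncated geometric series. -/
theorem blockOut_lower (h : Block W D) {J K : ℕ} {B : Set E} (hB : MeasurableSet B) :
    (∑ j ∈ range J, (1 - (seedLaw E K).real (accepted D K)) ^ j) *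
        (seedLaw E K).real ((Prod.fst ⁻¹' B) ∩ accepted D K)
      ≤ (Measure.pi fun _ : Fin J => seedLaw E K).real (blockOut D ⁻¹' B) := by
  classical
  set A := accepted D K
  have hA : MeasurableSet A := measurableSet_accepted h K
  set S := (Prod.fst ⁻¹' B) ∩ A with hSdef
  have hS : MeasurableSet S := (measurable_fst hB).inter hA
  let F : Fin J → Set (Fin J → Seed E K) := fun j =>
    Set.pi Set.univ fun l => if l < j then Aᶜ else if l = j then S else Set.univ
  have hF : ∀ j, (Measure.pi fun _ : Fin J => seedLaw E K).real (F j)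
      = (1 - (seedLaw E K).real A) ^ (j : ℕ) * (seedLaw E K).real S := fun j => by
    rw [measureReal_def, Measure.pi_pi, ENNReal.toReal_prod,
      ← Finset.mul_prod_erase univ _ (mem_univ j)]
    simp only [lt_irrefl, if_false, if_true]
    rw [mul_comm]
    refine congrArg (· * _) ?_
    rw [prod_congr rfl (g := fun l => if l < j then 1 - (seedLaw E K).real A else 1) fun l hl => ?_,
      prod_ite, prod_const_one, mul_one, prod_const,
      show ((univ.erase j).filter fun l => l < j) = univ.filter fun l => l < j from
        Finset.ext fun l => by simp; exact fun hl => hl.ne, card_filter_lt]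
    split_ifs with h1 h2
    · exact (probReal_compl_eq_one_sub hA)
    · exact absurd h2 (Finset.ne_of_mem_erase hl)
    · simp
  have hsub : ⋃ j, F j ⊆ blockOut D ⁻¹' B := by
    intro s hs
    obtain ⟨j, hj⟩ := Set.mem_iUnion.1 hs
    have hjl : ∀ l, s l ∈ if l < j then Aᶜ else if l = j then S else Set.univ := fun l =>
      hj l (Set.mem_univ l)
    have h1 : ∀ l, l < j → s l ∉ A := fun l hl => by simpa [hl] using hjl l
    have h2 : s j ∈ S := by simpa using hjl j
    have hval : blockOut D s = (s j).1 := by
      rw [blockOut, pick, Finset.sum_eq_single j]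
      · exact if_pos ⟨h2.2, h1⟩
      · intro l _ hlj
        refine if_neg fun hh => ?_
        rcases lt_or_gt_of_ne hlj with hl | hl
        · exact h1 l hl hh.1
        · exact hh.2 j hl h2.2
      · simp
    show blockOut D s ∈ B
    rw [hval]
    exact h2.1
  have hdisj : Pairwise (Function.onFun Disjoint F) := fun i j hij => Set.disjoint_left.2
    fun s hi hj => by
      have e1 := fun l => hi l (Set.mem_univ l)
      have e2 := fun l => hj l (Set.mem_univ l)
      rcases lt_or_gt_of_ne hij with hl | hl
      · exact absurd (show s i ∈ S by simpa using e1 i).2 (by simpa [hl] using e2 i)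
      · exact absurd (show s j ∈ S by simpa using e2 j).2 (by simpa [hl] using e1 j)
  have hFm : ∀ j, MeasurableSet (F j) := fun j => MeasurableSet.univ_pi fun l => by
    split_ifs
    exacts [hA.compl, hS, MeasurableSet.univ]
  refine le_trans (le_of_eq ?_) (measureReal_mono hsub)
  rw [measureReal_iUnion_fintype hdisj hFm, sum_congr rfl fun j _ => hF j,
    Fin.sum_univ_eq_sum_range fun j => (1 - (seedLaw E K).real A) ^ j * (seedLaw E K).real S,
    Finset.sum_mul]

/-- **One block.** -/
theorem block_law (h : Block W D) {b J K : ℕ} {L δ : ℝ} (hb : Module.finrank ℝ E ≤ b)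
    (hδ : δ ≤ 1 / 4) (hK : Real.exp (3 * L) ≤ δ * 2 ^ K) (hL : 2 ^ b * Real.exp (-L / 4) ≤ δ)
    (hJ : Real.exp (-((J : ℝ) / 2 ^ (b + 1))) ≤ δ) {B : Set E} (hB : MeasurableSet B) :
    (1 - 2 * δ) * (gibbs W).real (B ∩ ballSet E L)
      ≤ (Measure.pi fun _ : Fin J => seedLaw E K).real (blockOut D ⁻¹' B) := by
  set c := (2 * π) ^ (Module.finrank ℝ E / 2 : ℝ) with hc
  have hcpos : 0 < c := by positivity
  have hδ0 : 0 ≤ δ := le_trans (by positivity) hL
  have hZ := weight_pos h
  set Z := ∫ y, Real.exp (-W y) with hZdef
  have hbox := gibbs_ball h hb L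
  set p := (seedLaw E K).real (accepted D K) with hp
  -- accepted mass in a set against the Gibbs law
  have hlow : ∀ {C : Set E}, MeasurableSet C → (1 - δ) * (Z / c) * (gibbs W).real (C ∩ ballSet E L)
      ≤ (seedLaw E K).real ((Prod.fst ⁻¹' C) ∩ accepted D K) := fun {C} hC => by
    have hm := hC.inter (measurableSet_ballSet (E := E) L)
    rw [real_accepted h K hC, real_gibbs h hm]
    calc (1 - δ) * (Z / c) * ((∫ x in C ∩ ballSet E L, Real.exp (-W x)) / Z)
        = ∫ x in C ∩ ballSet E L, (1 - δ) * (Real.exp (-W x) / c) := by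
          rw [integral_const_mul, integral_div]
          field_simp
      _ ≤ ∫ x in C ∩ ballSet E L, gaussDensity x * coinMean W K x := by
          refine setIntegral_mono_on (((integrable_weight h).div_const c).const_mul _).integrableOn
            (integrable_product h K).integrableOn hm fun x hx => ?_
          rw [hc, ← gauss_mul_eq, mul_left_comm]
          exact mul_le_mul_of_nonneg_left (le_coinMean h x hx.2 hK) (gaussDensity_nonneg x)
      _ ≤ _ := setIntegral_mono_set (integrable_product h K).integrableOn
          (Filter.Eventually.of_forall fun x =>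
            mul_nonneg (gaussDensity_nonneg x) (coinMean_nonneg h K x))
          (Filter.Eventually.of_forall fun x hx => hx.1)
  have hp1 : p ≤ 1 := measureReal_le_one
  have hpup : p ≤ Z / c := by
    have := real_accepted h K MeasurableSet.univ
    rw [Set.preimage_univ, Set.univ_inter, setIntegral_univ] at this
    rw [hp, this, hZdef, ← integral_div]
    refine integral_mono (integrable_product h K) ((integrable_weight h).div_const c) fun x => ?_
    dsimp only
    rw [hc, ← gauss_mul_eq]
    exact mul_le_mul_of_nonneg_left (coinMean_le h K x) (gaussDensity_nonneg x)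
  have hplow : 1 / 2 ^ (b + 1) ≤ p := by
    have h1 : (1 - δ) * (Z / c) * (gibbs W).real (ballSet E L) ≤ p := by
      have := hlow MeasurableSet.univ
      rwa [Set.univ_inter, Set.preimage_univ, Set.univ_inter, ← hp] at this
    have hratio : 1 / 2 ^ b ≤ Z / c := by
      have hlowZ : (π / 1) ^ (Module.finrank ℝ E / 2 : ℝ) ≤ Z := by
        rw [← GaussianFourier.integral_rexp_neg_mul_sq_norm (V := E) one_pos]
        exact integral_mono (integrable_gauss one_pos) (integrable_weight h) fun x =>
          Real.exp_le_exp.2 (by linarith [(h.bounds x).2])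
      rw [div_le_div_iff₀ (by positivity) hcpos, one_mul, hc,
        Real.mul_rpow (by norm_num) Real.pi_pos.le]
      rw [div_one] at hlowZ
      calc (2 : ℝ) ^ (Module.finrank ℝ E / 2 : ℝ) * π ^ (Module.finrank ℝ E / 2 : ℝ)
          ≤ 2 ^ b * Z := by
            refine mul_le_mul ?_ hlowZ (by positivity) (by positivity)
            rw [← Real.rpow_natCast 2 b]
            refine Real.rpow_le_rpow_of_exponent_le (by norm_num) ?_
            have : (Module.finrank ℝ E : ℝ) ≤ b := by exact_mod_cast hb
            linarith [Nat.cast_nonneg (α := ℝ) (Module.finrank ℝ E)]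
        _ = Z * 2 ^ b := mul_comm _ _
    refine le_trans ?_ h1
    calc (1 : ℝ) / 2 ^ (b + 1) = 1 / 2 * (1 / 2 ^ b) := by rw [pow_succ]; ring
      _ ≤ (1 - δ) * (gibbs W).real (ballSet E L) * (Z / c) := by
          refine mul_le_mul ?_ hratio (by positivity) ?_
          · nlinarith
          · exact mul_nonneg (by linarith) measureReal_nonneg
      _ = _ := by ring
  have hppos : 0 < p := lt_of_lt_of_le (by positivity) hplow
  have hgeom : (1 - δ) / p ≤ ∑ j ∈ range J, (1 - p) ^ j := by
    rw [div_le_iff₀ hppos]
    have h1 := geom_sum_mul_neg (1 - p) J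
    rw [sub_sub_cancel] at h1
    rw [h1]
    have h2 : (1 - p) ^ J ≤ δ := by
      refine le_trans ?_ hJ
      calc (1 - p) ^ J ≤ Real.exp (-p) ^ J :=
            pow_le_pow_left₀ (by linarith) (Real.one_sub_le_exp_neg p) J
        _ = Real.exp ((J : ℝ) * -p) := (Real.exp_nat_mul _ _).symm
        _ ≤ _ := by
            refine Real.exp_le_exp.2 ?_
            rw [mul_neg, neg_le_neg_iff, div_eq_mul_one_div]
            exact mul_le_mul_of_nonneg_left hplow (Nat.cast_nonneg J)
    linarith
  refine le_trans ?_ (blockOut_lower h hB)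
  have hg0 : 0 ≤ (gibbs W).real (B ∩ ballSet E L) := measureReal_nonneg
  calc (1 - 2 * δ) * (gibbs W).real (B ∩ ballSet E L)
      ≤ (1 - δ) / p * ((1 - δ) * (Z / c) * (gibbs W).real (B ∩ ballSet E L)) := by
        rw [show (1 - δ) / p * ((1 - δ) * (Z / c) * (gibbs W).real (B ∩ ballSet E L))
          = (1 - δ) * (1 - δ) * (Z / c / p) * (gibbs W).real (B ∩ ballSet E L) by ring]
        refine mul_le_mul_of_nonneg_right ?_ hg0
        calc 1 - 2 * δ ≤ (1 - δ) * (1 - δ) * 1 := by nlinarith
          _ ≤ _ := mul_le_mul_of_nonneg_left ((one_le_div hppos).2 hpup)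
              (mul_nonneg (by linarith) (by linarith))
    _ ≤ _ := mul_le_mul hgeom (hlow hB)
        (mul_nonneg (mul_nonneg (by linarith) (by positivity)) hg0)
        (sum_nonneg fun j _ => pow_nonneg (by linarith) j)

end

end P347
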