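import Mathlib

/-!
# P347: an exact coin for one block, from gradients along a segment

For a point `x` of squared norm `c` and uniform numbers `u l`, the truncated series
`exp (-c) * sum over k of (1/k!) * product over l < k of (c (1 + u l) - <grad W (u l x), x>)` lies in
`[0, 1]` and has mean `exp (-c) * sum over k < K of (1.5 c - W x)^k / k!`, close to `exp (c/2 - W x)`.
-/

namespace P347

open MeasureTheory Finset
open scoped BigOperators RealInnerProductSpace

noncomputable section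

variable {E : Type*} [NormedAddCommGroup E] [InnerProductSpace ℝ E]

/-- The uniform law on the unit interval. -/
def unifLaw : Measure ℝ := volume.restrict (Set.Icc 0 1)

instance : IsProbabilityMeasure unifLaw := ⟨by simp [unifLaw]⟩

/-- The coin, clipped to the intended range of its arguments. -/
def coin {K : ℕ} (x : E) (u : Fin K → ℝ) (G : Fin K → E) : ℝ :=
  Real.exp (-‖x‖ ^ 2) * ∑ k : Fin K,
    (∏ l : Fin K, if l < k then ‖x‖ ^ 2 * (1 + u l) - ⟪G l, x⟫ else (1 : ℝ))
      / ((k : ℕ).factorial : ℝ)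

/-- A block potential with the gradient used by the coin. -/
structure Block (W : E → ℝ) (D : E → E) : Prop where
  cont : Continuous D
  zero : W 0 = 0
  deriv : ∀ x t, HasDerivAt (fun t : ℝ => W (t • x)) ⟪D (t • x), x⟫ t
  lower : ∀ x, ‖x‖ ^ 2 ≤ ⟪D x, x⟫
  upper : ∀ x, ⟪D x, x⟫ ≤ 2 * ‖x‖ ^ 2

variable {W : E → ℝ} {D : E → E}

theorem card_filter_lt {K : ℕ} (k : Fin K) : (univ.filter fun l : Fin K => l < k).card = k := by
  rw [show (univ.filter fun l : Fin K => l < k) = Iio k from Finset.ext fun l => by simp,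
    Fin.card_Iio]

theorem Block.continuous_inner (h : Block W D) (x : E) :
    Continuous fun t : ℝ => ⟪D (t • x), x⟫ :=
  (h.cont.comp (continuous_id.smul continuous_const)).inner continuous_const

theorem Block.line (h : Block W D) (x : E) {t : ℝ} (ht : 0 ≤ t) :
    t * ‖x‖ ^ 2 ≤ ⟪D (t • x), x⟫ ∧ ⟪D (t • x), x⟫ ≤ 2 * t * ‖x‖ ^ 2 := by
  have key : ∀ s : ℝ, 0 < s →
      s * ‖x‖ ^ 2 ≤ ⟪D (s • x), x⟫ ∧ ⟪D (s • x), x⟫ ≤ 2 * s * ‖x‖ ^ 2 := fun s hs => by
    have h1 := h.lower (s • x)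
    have h2 := h.upper (s • x)
    rw [norm_smul, Real.norm_eq_abs, abs_of_pos hs, mul_pow, real_inner_smul_right] at h1 h2
    exact ⟨le_of_mul_le_mul_left (by linarith) hs, le_of_mul_le_mul_left (by linarith) hs⟩
  have hcl : closure (Set.Ioi (0 : ℝ)) ⊆
      {s : ℝ | s * ‖x‖ ^ 2 ≤ ⟪D (s • x), x⟫ ∧ ⟪D (s • x), x⟫ ≤ 2 * s * ‖x‖ ^ 2} :=
    closure_minimal key ((isClosed_le (continuous_id.mul continuous_const)
      (h.continuous_inner x)).inter (isClosed_le (h.continuous_inner x)
      ((continuous_const.mul continuous_id).mul continuous_const)))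
  exact hcl (by rwa [closure_Ioi, Set.mem_Ici])

theorem Block.integral_eq (h : Block W D) (x : E) :
    ∫ t in (0 : ℝ)..1, ⟪D (t • x), x⟫ = W x := by
  rw [intervalIntegral.integral_eq_sub_of_hasDerivAt (fun t _ => h.deriv x t)
    ((h.continuous_inner x).intervalIntegrable _ _)]
  simp [h.zero]

theorem Block.bounds (h : Block W D) (x : E) : ‖x‖ ^ 2 / 2 ≤ W x ∧ W x ≤ ‖x‖ ^ 2 := by
  have h1 := intervalIntegral.integral_mono_on (μ := volume) (f := fun t : ℝ => t * ‖x‖ ^ 2)
    zero_le_one (Continuous.intervalIntegrable (by fun_prop) 0 1)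
    ((h.continuous_inner x).intervalIntegrable 0 1) fun t ht => (h.line x ht.1).1
  have h2 := intervalIntegral.integral_mono_on (μ := volume) (g := fun t : ℝ => 2 * t * ‖x‖ ^ 2)
    zero_le_one ((h.continuous_inner x).intervalIntegrable 0 1)
    (Continuous.intervalIntegrable (by fun_prop) 0 1) fun t ht => (h.line x ht.1).2
  rw [h.integral_eq] at h1 h2
  simp only [intervalIntegral.integral_mul_const, integral_id] at h1 h2
  rw [intervalIntegral.integral_const_mul, integral_id] at h2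
  constructor <;> linarith

/-- The mean of the coin. -/
def coinMean (W : E → ℝ) (K : ℕ) (x : E) : ℝ :=
  Real.exp (-‖x‖ ^ 2) * ∑ k ∈ range K, (3 / 2 * ‖x‖ ^ 2 - W x) ^ k / (k.factorial : ℝ)

theorem unif_mean (h : Block W D) (x : E) :
    ∫ t, ‖x‖ ^ 2 * (1 + t) - ⟪D (t • x), x⟫ ∂unifLaw = 3 / 2 * ‖x‖ ^ 2 - W x := by
  rw [unifLaw, integral_Icc_eq_integral_Ioc, ← intervalIntegral.integral_of_le zero_le_one,
    intervalIntegral.integral_sub (Continuous.intervalIntegrable (by fun_prop) _ _)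
      ((h.continuous_inner x).intervalIntegrable _ _), h.integral_eq,
    intervalIntegral.integral_const_mul,
    intervalIntegral.integral_add intervalIntegrable_const
      (intervalIntegral.intervalIntegrable_id)]
  simp
  ring

theorem coin_mean (h : Block W D) {K : ℕ} (x : E) :
    ∫ u, coin x u (fun l => D (u l • x)) ∂(Measure.pi fun _ : Fin K => unifLaw)
      = coinMean W K x := by
  have hf : ∀ t : ℝ, Continuous fun _ : ℝ => t := fun _ => continuous_const
  have hc : Continuous fun t : ℝ => ‖x‖ ^ 2 * (1 + t) - ⟪D (t • x), x⟫ :=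
    (by fun_prop : Continuous fun t : ℝ => ‖x‖ ^ 2 * (1 + t)).sub (h.continuous_inner x)
  have hint1 : Integrable (fun t : ℝ => ‖x‖ ^ 2 * (1 + t) - ⟪D (t • x), x⟫) unifLaw :=
    hc.continuousOn.integrableOn_compact isCompact_Icc
  simp only [coin, coinMean]
  rw [integral_const_mul, integral_finsetSum, ← Fin.sum_univ_eq_sum_range]
  · refine congrArg _ (sum_congr rfl fun k _ => ?_)
    rw [integral_div, integral_fintype_prod_eq_prod
      (f := fun (l : Fin K) t => if l < k then ‖x‖ ^ 2 * (1 + t) - ⟪D (t • x), x⟫ else 1)]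
    refine congrArg (· / _) ?_
    rw [prod_congr rfl (g := fun l => if l < k then 3 / 2 * ‖x‖ ^ 2 - W x else 1)
      fun l _ => ?_, prod_ite]
    · simp [card_filter_lt]
    · split_ifs
      · exact unif_mean h x
      · simp
  · intro k _
    refine (Integrable.fintype_prod (f := fun (l : Fin K) t =>
      if l < k then ‖x‖ ^ 2 * (1 + t) - ⟪D (t • x), x⟫ else 1) fun l => ?_).div_const _
    by_cases hl : l < k
    · simpa [hl] using hint1
    · simp [hl]

theorem coin_mem (h : Block W D) {K : ℕ} (x : E) {u : Fin K → ℝ}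
    (hu : ∀ l, u l ∈ Set.Icc (0 : ℝ) 1) :
    coin x u (fun l => D (u l • x)) ∈ Set.Icc (0 : ℝ) 1 := by
  have hb : ∀ l, 0 ≤ ‖x‖ ^ 2 * (1 + u l) - ⟪D (u l • x), x⟫ ∧
      ‖x‖ ^ 2 * (1 + u l) - ⟪D (u l • x), x⟫ ≤ ‖x‖ ^ 2 := fun l => by
    obtain ⟨h1, h2⟩ := h.line x (hu l).1
    have := mul_le_mul_of_nonneg_right (hu l).2 (sq_nonneg ‖x‖)
    constructor <;> nlinarith
  unfold coin
  constructor
  · refine mul_nonneg (Real.exp_nonneg _) (sum_nonneg fun k _ => div_nonneg
      (prod_nonneg fun l _ => ?_) (by positivity))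
    split_ifs
    exacts [(hb l).1, zero_le_one]
  · calc coin x u (fun l => D (u l • x))
        ≤ Real.exp (-‖x‖ ^ 2) * ∑ k : Fin K, (‖x‖ ^ 2) ^ (k : ℕ) / ((k : ℕ).factorial : ℝ) := by
          refine mul_le_mul_of_nonneg_left (sum_le_sum fun k _ => ?_) (Real.exp_nonneg _)
          refine div_le_div_of_nonneg_right ?_ (by positivity)
          calc _ ≤ ∏ l : Fin K, if l < k then ‖x‖ ^ 2 else 1 := by
                refine prod_le_prod (fun l _ => ?_) fun l _ => ?_ <;> split_ifs
                exacts [(hb l).1, zero_le_one, (hb l).2, le_refl _]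
            _ = _ := by rw [prod_ite]; simp [card_filter_lt]
      _ ≤ Real.exp (-‖x‖ ^ 2) * Real.exp (‖x‖ ^ 2) := by
          refine mul_le_mul_of_nonneg_left ?_ (Real.exp_nonneg _)
          rw [Fin.sum_univ_eq_sum_range fun k => (‖x‖ ^ 2) ^ k / (k.factorial : ℝ)]
          exact Real.sum_le_exp_of_nonneg (sq_nonneg _) K
      _ = 1 := by rw [← Real.exp_add]; simp

/-- The truncated exponential series. -/
theorem exp_series_tail {y : ℝ} (hy : 0 ≤ y) (K : ℕ) :
    Real.exp y - ∑ k ∈ range K, y ^ k / (k.factorial : ℝ)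
      ≤ Real.exp (2 * y) / 2 ^ K := by
  have hs : Summable fun k : ℕ => y ^ k / (k.factorial : ℝ) := Real.summable_pow_div_factorial y
  have hs2 : Summable fun k : ℕ => (2 * y) ^ k / (k.factorial : ℝ) :=
    Real.summable_pow_div_factorial _
  have he : ∀ z : ℝ, Real.exp z = ∑' k : ℕ, z ^ k / (k.factorial : ℝ) := fun z => by
    rw [Real.exp_eq_exp_ℝ, NormedSpace.exp_eq_tsum_div]
  rw [le_div_iff₀ (by positivity : (0 : ℝ) < 2 ^ K), he y, he (2 * y),
    ← hs.sum_add_tsum_nat_add K, add_sub_cancel_left, ← tsum_mul_right]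
  calc ∑' j : ℕ, y ^ (j + K) / ((j + K).factorial : ℝ) * 2 ^ K
      ≤ ∑' j : ℕ, (2 * y) ^ (j + K) / ((j + K).factorial : ℝ) := by
        refine Summable.tsum_le_tsum (fun j => ?_) (((summable_nat_add_iff K).2 hs).mul_right _)
          ((summable_nat_add_iff K).2 hs2)
        rw [mul_pow, pow_add 2 j K, div_mul_eq_mul_div]
        refine div_le_div_of_nonneg_right ?_ (by positivity)
        have h0 : 0 ≤ y ^ (j + K) := pow_nonneg hy _
        have h1 : (1 : ℝ) ≤ 2 ^ j := one_le_pow₀ (by norm_num)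
        nlinarith [mul_nonneg h0 (pow_nonneg (by norm_num : (0:ℝ) ≤ 2) K)]
    _ ≤ ∑' k : ℕ, (2 * y) ^ k / (k.factorial : ℝ) := by
        rw [← hs2.sum_add_tsum_nat_add K]
        exact le_add_of_nonneg_left (sum_nonneg fun k _ => by positivity)

theorem coinMean_le (h : Block W D) (K : ℕ) (x : E) :
    coinMean W K x ≤ Real.exp (‖x‖ ^ 2 / 2 - W x) := by
  have hb := h.bounds x
  calc coinMean W K x ≤ Real.exp (-‖x‖ ^ 2) * Real.exp (3 / 2 * ‖x‖ ^ 2 - W x) :=
        mul_le_mul_of_nonneg_left (Real.sum_le_exp_of_nonneg (by nlinarith [norm_nonneg x]) K)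
          (Real.exp_nonneg _)
    _ = _ := by rw [← Real.exp_add]; ring_nf

theorem le_coinMean (h : Block W D) {K : ℕ} {L δ : ℝ} (x : E) (hx : ‖x‖ ^ 2 ≤ L)
    (hK : Real.exp (3 * L) ≤ δ * 2 ^ K) :
    (1 - δ) * Real.exp (‖x‖ ^ 2 / 2 - W x) ≤ coinMean W K x := by
  have hb := h.bounds x
  set y := 3 / 2 * ‖x‖ ^ 2 - W x with hy
  have h1 := exp_series_tail (y := y) (by nlinarith [norm_nonneg x]) K
  have h2 : Real.exp (2 * y) / 2 ^ K ≤ δ * Real.exp y := by
    have h0 : (0 : ℝ) ≤ δ * 2 ^ K := (Real.exp_nonneg _).trans hK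
    rw [div_le_iff₀ (by positivity : (0 : ℝ) < 2 ^ K), mul_right_comm]
    calc Real.exp (2 * y) = Real.exp y * Real.exp y := by rw [← Real.exp_add]; ring_nf
      _ ≤ Real.exp (3 * L) * Real.exp y := by
          gcongr
          nlinarith [norm_nonneg x]
      _ ≤ δ * 2 ^ K * Real.exp y := by gcongr
  have h3 : Real.exp (‖x‖ ^ 2 / 2 - W x) = Real.exp (-‖x‖ ^ 2) * Real.exp y := by
    rw [← Real.exp_add, hy]; ring_nf
  rw [h3, coinMean, ← hy, mul_left_comm]
  exact mul_le_mul_of_nonneg_left (by linarith) (Real.exp_nonneg _)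

end

end P347
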