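import Vale.Agent.P347.Split

/-!
# P347: independent block laws against the product Gibbs law

If every block law dominates a multiple of its Gibbs law on a ball, the law of the glued point
dominates the global Gibbs law up to an error that is linear in the number of blocks.
-/

namespace P347

open MeasureTheory Finset
open scoped BigOperators RealInnerProductSpace ENNReal

noncomputable section

theorem pi_mono {κ : Type} [Fintype κ] {α : κ → Type} [∀ i, MeasurableSpace (α i)]
    {μ ν : ∀ i, Measure (α i)} (h : ∀ i, μ i ≤ ν i) : Measure.pi μ ≤ Measure.pi ν := by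
  refine Measure.le_iff.2 fun s hs => ?_
  rw [Measure.pi, Measure.pi, toMeasure_apply _ _ hs, toMeasure_apply _ _ hs]
  refine OuterMeasure.le_pi.2 (fun t _ => (OuterMeasure.pi_pi_le _ t).trans ?_) s
  exact prod_le_prod' fun i _ => Measure.le_iff'.1 (h i) _

variable {ι κ : Type} [Fintype ι] [Fintype κ] [DecidableEq κ] {blk : ι → κ}
  {V : EuclideanSpace ℝ ι → ℝ}

/-- The product of the block Gibbs laws, glued, is the global Gibbs law. -/
theorem gibbs_product (h : Block V (gradient V))
    (hsep : ∀ x, V x = ∑ i, V (emb blk i (res blk i x))) :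
    (Measure.pi fun i => gibbs fun y => V (emb blk i y)).map (glue blk) = gibbs V := by
  set W := fun i => fun y : Part blk i => V (emb blk i y) with hW
  have hB : ∀ i, Block (W i) fun y => res blk i (gradient V (emb blk i y)) := h.part
  set Z := fun i => ∫ y, Real.exp (-W i y) with hZ
  set ρ := fun i (y : Part blk i) => Real.exp (-W i y) / Z i with hρ
  have hρ0 : ∀ i y, 0 ≤ ρ i y := fun i y => div_nonneg (Real.exp_nonneg _) (weight_pos (hB i)).le
  have hρi : ∀ i, Integrable (ρ i) := fun i => (integrable_weight (hB i)).div_const _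
  haveI : ∀ i, IsProbabilityMeasure (gibbs (W i)) := fun i => ⟨gibbs_univ (hB i)⟩
  have hden : Measure.pi (fun i => gibbs (W i))
      = (Measure.pi fun i => (volume : Measure (Part blk i))).withDensity
          fun y => ENNReal.ofReal (∏ i, ρ i (y i)) := by
    refine Measure.pi_eq fun s hs => ?_
    rw [withDensity_apply _ (MeasurableSet.univ_pi hs), Measure.restrict_pi_pi,
      ← ofReal_integral_eq_lintegral_ofReal
        (f := fun y : (i : κ) → Part blk i => ∏ i, ρ i (y i))
        (Integrable.fintype_prod_dep (f := ρ) fun i => (hρi i).restrict)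
        (Filter.Eventually.of_forall fun y => prod_nonneg fun i _ => hρ0 i (y i)),
      integral_fintype_prod_eq_prod (f := ρ),
      ENNReal.ofReal_prod_of_nonneg fun i _ => setIntegral_nonneg (hs i) fun y _ => hρ0 i y]
    refine prod_congr rfl fun i _ => ?_
    rw [gibbs, withDensity_apply _ (hs i),
      ofReal_integral_eq_lintegral_ofReal (hρi i).integrableOn
        (Filter.Eventually.of_forall (hρ0 i))]
  have hfun : ∀ y : (i : κ) → Part blk i,
      ∏ i, ρ i (y i) = Real.exp (-V (glue blk y)) / ∏ i, Z i := fun y => by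
    rw [sum_part hsep, prod_div_distrib, ← sum_neg_distrib, Real.exp_sum]
  set T := ∏ i, Z i
  have hm : Measurable fun x => ENNReal.ofReal (Real.exp (-V x) / T) :=
    ((Real.continuous_exp.comp h.continuous_potential.neg).div_const T).measurable.ennreal_ofReal
  have hmap : (Measure.pi fun i => gibbs (W i)).map (glue blk)
      = volume.withDensity fun x => ENNReal.ofReal (Real.exp (-V x) / T) := by
    refine Measure.ext fun S hS => ?_
    rw [Measure.map_apply (continuous_glue blk).measurable hS, hden,
      withDensity_apply _ ((continuous_glue blk).measurable hS), withDensity_apply _ hS,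
      ← (glue_preserving blk).setLIntegral_comp_preimage hS hm]
    simp only [hfun]
  rw [hmap, gibbs]
  have huniv := congrArg (fun μ : Measure _ => μ Set.univ) hmap
  simp only [Measure.map_apply (continuous_glue blk).measurable MeasurableSet.univ,
    Set.preimage_univ, measure_univ, withDensity_apply _ MeasurableSet.univ,
    Measure.restrict_univ] at huniv
  rw [← ofReal_integral_eq_lintegral_ofReal ((integrable_weight h).div_const T)
    (Filter.Eventually.of_forall fun x => div_nonneg (Real.exp_nonneg _)
      (prod_nonneg fun i _ => (weight_pos (hB i)).le)), integral_div, eq_comm,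
    ENNReal.ofReal_eq_one, div_eq_one_iff_eq (prod_ne_zero_iff.2 fun i _ => (weight_pos (hB i)).ne')]
    at huniv
  rw [huniv]

/-- **Gluing.** -/
theorem glue_lower (h : Block V (gradient V))
    (hsep : ∀ x, V x = ∑ i, V (emb blk i (res blk i x)))
    (law : ∀ i, Measure (Part blk i)) [∀ i, IsProbabilityMeasure (law i)] {δ L : ℝ}
    (hδ0 : 0 ≤ δ) (hδ : δ ≤ 1 / 4)
    (hball : ∀ i, 1 - δ ≤ (gibbs fun y => V (emb blk i y)).real (ballSet (Part blk i) L))
    (hlaw : ∀ i, ∀ B, MeasurableSet B →
      (1 - 2 * δ) * (gibbs fun y => V (emb blk i y)).real (B ∩ ballSet (Part blk i) L)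
        ≤ (law i).real B)
    {S : Set (EuclideanSpace ℝ ι)} (hS : MeasurableSet S) :
    (gibbs V).real S - 3 * Fintype.card κ * δ ≤ ((Measure.pi law).map (glue blk)).real S := by
  set μ := fun i => gibbs fun y => V (emb blk i y) with hμ
  haveI : ∀ i, IsProbabilityMeasure (μ i) := fun i => ⟨gibbs_univ (h.part i)⟩
  set c := ENNReal.ofReal (1 - 2 * δ) with hc
  set box := Set.univ.pi fun i => ballSet (Part blk i) L
  have hbox : MeasurableSet box := MeasurableSet.univ_pi fun i => measurableSet_ballSet L
  have hle : ∀ i, c • (μ i).restrict (ballSet (Part blk i) L) ≤ law i := fun i => by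
    refine Measure.le_iff.2 fun B hB => ?_
    rw [Measure.smul_apply, smul_eq_mul, Measure.restrict_apply hB, hc, ← ofReal_measureReal,
      ← ENNReal.ofReal_mul (by linarith), ← ofReal_measureReal]
    exact ENNReal.ofReal_le_ofReal (hlaw i B hB)
  haveI : ∀ i, IsFiniteMeasure (c • (μ i).restrict (ballSet (Part blk i) L)) := fun i =>
    isFiniteMeasure_of_le (law i) (hle i)
  have hpi : c ^ Fintype.card κ • (Measure.pi μ).restrict box ≤ Measure.pi law := by
    refine le_of_eq_of_le ?_ (pi_mono hle)
    refine (Measure.pi_eq fun s hs => ?_).symm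
    rw [Measure.smul_apply, Measure.restrict_pi_pi, Measure.pi_pi, smul_eq_mul]
    simp only [Measure.smul_apply, smul_eq_mul]
    rw [prod_mul_distrib, prod_const, card_univ]
  set T := glue blk ⁻¹' S
  have hT : MeasurableSet T := (continuous_glue blk).measurable hS
  have h1 : (1 - 2 * δ) ^ Fintype.card κ * (Measure.pi μ).real (T ∩ box)
      ≤ (Measure.pi law).real T := by
    have := ENNReal.toReal_mono (measure_ne_top _ _) (Measure.le_iff.1 hpi T hT)
    rwa [Measure.smul_apply, smul_eq_mul, Measure.restrict_apply hT, ENNReal.toReal_mul,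
      ENNReal.toReal_pow, hc, ENNReal.toReal_ofReal (by linarith)] at this
  have h2 : 1 - Fintype.card κ * δ ≤ (Measure.pi μ).real box := by
    rw [measureReal_def, Measure.pi_pi, ENNReal.toReal_prod]
    calc 1 - (Fintype.card κ : ℝ) * δ ≤ (1 - δ) ^ Fintype.card κ := by
          have := one_add_mul_le_pow (a := -δ) (by linarith) (Fintype.card κ)
          rw [← sub_eq_add_neg] at this
          linarith
      _ = ∏ _i : κ, (1 - δ) := by rw [prod_const, card_univ]
      _ ≤ _ := prod_le_prod (fun i _ => by linarith) fun i _ => hball i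
  have h3 : (Measure.pi μ).real T ≤ (Measure.pi μ).real (T ∩ box) + Fintype.card κ * δ := by
    have e := measureReal_union_le (μ := Measure.pi μ) (T ∩ box) boxᶜ
    rw [probReal_compl_eq_one_sub hbox] at e
    have : (Measure.pi μ).real T ≤ (Measure.pi μ).real (T ∩ box ∪ boxᶜ) :=
      measureReal_mono fun y hy => (em (y ∈ box)).imp (fun hb => ⟨hy, hb⟩) id
    linarith
  have h4 : 1 - 2 * (Fintype.card κ : ℝ) * δ ≤ (1 - 2 * δ) ^ Fintype.card κ := by
    have := one_add_mul_le_pow (a := -(2 * δ)) (by linarith) (Fintype.card κ)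
    rw [← sub_eq_add_neg] at this
    linarith
  have h5 : (gibbs V).real S = (Measure.pi μ).real T := by
    rw [← gibbs_product h hsep, measureReal_def,
      Measure.map_apply (continuous_glue blk).measurable hS]
    rfl
  rw [h5, measureReal_def (μ := Measure.map _ _), Measure.map_apply (continuous_glue blk).measurable hS]
  refine le_trans ?_ h1
  have u0 : 0 ≤ (Measure.pi μ).real (T ∩ box) := measureReal_nonneg
  have u1 : (Measure.pi μ).real (T ∩ box) ≤ 1 := measureReal_le_one
  have hn : 0 ≤ (Fintype.card κ : ℝ) * δ := by positivity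
  have := mul_le_mul_of_nonneg_right h4 u0
  nlinarith

/-- **Two sides.** -/
theorem glue_close (h : Block V (gradient V))
    (hsep : ∀ x, V x = ∑ i, V (emb blk i (res blk i x)))
    (law : ∀ i, Measure (Part blk i)) [∀ i, IsProbabilityMeasure (law i)] {δ L : ℝ}
    (hδ0 : 0 ≤ δ) (hδ : δ ≤ 1 / 4)
    (hball : ∀ i, 1 - δ ≤ (gibbs fun y => V (emb blk i y)).real (ballSet (Part blk i) L))
    (hlaw : ∀ i, ∀ B, MeasurableSet B →
      (1 - 2 * δ) * (gibbs fun y => V (emb blk i y)).real (B ∩ ballSet (Part blk i) L)
        ≤ (law i).real B)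
    {S : Set (EuclideanSpace ℝ ι)} (hS : MeasurableSet S) :
    |((Measure.pi law).map (glue blk)).real S - (gibbs V).real S| ≤ 3 * Fintype.card κ * δ := by
  haveI : IsProbabilityMeasure (gibbs V) := ⟨gibbs_univ h⟩
  haveI : IsProbabilityMeasure ((Measure.pi law).map (glue blk)) :=
    Measure.isProbabilityMeasure_map (continuous_glue blk).measurable.aemeasurable
  have h1 := glue_lower h hsep law hδ0 hδ hball hlaw hS
  have h2 := glue_lower h hsep law hδ0 hδ hball hlaw hS.compl
  rw [probReal_compl_eq_one_sub hS, probReal_compl_eq_one_sub hS] at h2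
  rw [abs_le]
  constructor <;> linarith

end

end P347
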